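import Vale.Agent.P011.H313.U.SpecA
import Vale.Agent.P011.H732.FSt

/-!
The passage from the letters of `H732.FSt` to the letters of `SpecA`.
-/

open Module TensorProduct Topology

namespace Vale.Agent.P011.H313.U

open Vale.Agent.P011.H738 (Place SUA integers maxIdeal IsGlobalFunctionField)
open Vale.Agent.P011.H732F (Kv Av GTop HA GK Adiv AK)

/-! ### Places -/

section place

variable {k : Type} [Field k]

theorem mk_eq_iff {a : AbsoluteValue k ℝ} {h : ∀ x y, a (x + y) ≤ max (a x) (a y)}
    {x y : integers a h} : Ideal.Quotient.mk (maxIdeal a h) x = Ideal.Quotient.mk (maxIdeal a h) y ↔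
      a ((x : k) - y) < 1 := by
  rw [Ideal.Quotient.mk_eq_mk_iff_sub_mem]
  rfl

/-- A normalized absolute value in the sense of `IsPlace` is normalized. -/
theorem IsPlace.norm {v : AbsoluteValue k ℝ} (hv : IsPlace v) :
    Finite (integers v hv.nonarch ⧸ maxIdeal v hv.nonarch) ∧
    (∃ x, v x = Nat.card (integers v hv.nonarch ⧸ maxIdeal v hv.nonarch)) ∧
    ∀ x, x ≠ 0 → ∃ m : ℤ, v x = Nat.card (integers v hv.nonarch ⧸ maxIdeal v hv.nonarch) ^ m := by
  obtain ⟨S, h1, h2, h3, h4⟩ := hv.normalized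
  let φ : S → integers v hv.nonarch ⧸ maxIdeal v hv.nonarch :=
    fun s => Ideal.Quotient.mk _ ⟨s.1, h1 s.1 s.2⟩
  have hφ : Function.Bijective φ := by
    constructor
    · intro s t hst
      have h5 : v ((s : k) - t) < 1 := mk_eq_iff.mp hst
      obtain ⟨u, -, hu⟩ := h2 s.1 (h1 s.1 s.2)
      have h6 := hu s.1 ⟨s.2, by rw [sub_self, map_zero]; exact zero_lt_one⟩
      have h7 := hu t.1 ⟨t.2, h5⟩
      exact Subtype.ext (h6.trans h7.symm)
    · intro q
      obtain ⟨x, rfl⟩ := Ideal.Quotient.mk_surjective q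
      obtain ⟨s, ⟨hs, hx⟩, -⟩ := h2 x.1 x.2
      refine ⟨⟨s, hs⟩, ?_⟩
      refine (mk_eq_iff.mpr ?_).symm
      exact hx
  have hc : Nat.card (integers v hv.nonarch ⧸ maxIdeal v hv.nonarch) = S.card := by
    rw [← Nat.card_congr (Equiv.ofBijective φ hφ), Nat.card_eq_fintype_card, Fintype.card_coe]
  refine ⟨Finite.of_surjective φ hφ.2, ?_, ?_⟩
  · rw [hc]; exact h3
  · rw [hc]; exact h4

/-- The place. -/
def toPlace (v : AbsoluteValue k ℝ) (hv : IsPlace v) : Place k := ⟨v, hv.nonarch, hv.norm⟩

/-- The absolute value of a place satisfies `IsPlace`. -/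
theorem isPlace_of (p : Place k) : IsPlace p.abv := by
  refine ⟨p.nonarch, ?_⟩
  have hf : Finite (integers p.abv p.nonarch ⧸ maxIdeal p.abv p.nonarch) := p.normalized.1
  let ψ : integers p.abv p.nonarch ⧸ maxIdeal p.abv p.nonarch → k := fun q => (Quotient.out q).1
  have hout : ∀ q : integers p.abv p.nonarch ⧸ maxIdeal p.abv p.nonarch,
      Ideal.Quotient.mk (maxIdeal p.abv p.nonarch) (Quotient.out q) = q := fun q => q.out_eq'
  have hinj : Function.Injective ψ := by
    intro q r hqr
    have h1 : Quotient.out q = Quotient.out r := Subtype.ext hqr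
    rw [← hout q, ← hout r, h1]
  have hfin : (Set.range ψ).Finite := Set.finite_range ψ
  have hcard : hfin.toFinset.card = Nat.card (integers p.abv p.nonarch ⧸
      maxIdeal p.abv p.nonarch) := by
    rw [← Set.ncard_eq_toFinset_card _ hfin, ← Nat.card_coe_set_eq]
    exact (Nat.card_congr (Equiv.ofInjective ψ hinj)).symm
  refine ⟨hfin.toFinset, ?_, ?_, ?_, ?_⟩
  · intro s hs
    obtain ⟨q, rfl⟩ := hfin.mem_toFinset.mp hs
    exact (Quotient.out q).2
  · intro x hx
    refine ⟨ψ (Ideal.Quotient.mk _ ⟨x, hx⟩), ⟨hfin.mem_toFinset.mpr ⟨_, rfl⟩, ?_⟩, ?_⟩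
    · exact mk_eq_iff.mp (hout (Ideal.Quotient.mk _ ⟨x, hx⟩)).symm
    · rintro s ⟨hs, hxs⟩
      obtain ⟨q, rfl⟩ := hfin.mem_toFinset.mp hs
      have h1 : Ideal.Quotient.mk (maxIdeal p.abv p.nonarch) (⟨x, hx⟩ : integers _ _) =
          Ideal.Quotient.mk (maxIdeal p.abv p.nonarch) (Quotient.out q) := mk_eq_iff.mpr hxs
      rw [h1, hout q]
  · rw [hcard]; exact p.normalized.2.1
  · rw [hcard]; exact p.normalized.2.2

end place

/-! ### The set `A(G)` -/

section adiv

variable {k K A : Type} [Field k] [Field K] [Ring A] [Algebra k K] [Algebra K A]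

theorem isDiv_of {L : Type} [CommRing L] [Algebra k L] (φ : K →ₐ[k] L)
    (h : letI := (φ : K →+* L).toAlgebra; ∀ x : L ⊗[K] A, x ≠ 0 → IsUnit x) :
    IsDiv k K A L := by
  let i : Algebra K L := (φ : K →+* L).toAlgebra
  refine ⟨i, ?_, h⟩
  exact IsScalarTower.of_algebraMap_eq fun r => (φ.commutes r).symm

theorem isDiv_iff (p : Place k) : IsDiv k K A p.abv.Completion ↔ p ∈ Adiv k K A := by
  constructor
  · rintro ⟨i, ht, h⟩
    let φ : K →ₐ[k] p.abv.Completion := IsScalarTower.toAlgHom k K p.abv.Completion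
    have hi : (φ : K →+* p.abv.Completion).toAlgebra = i := by
      refine Algebra.algebra_ext _ _ fun r => ?_
      rfl
    refine ⟨φ, ?_⟩
    have key : ∀ j : Algebra K p.abv.Completion, j = i →
        ∀ x : p.abv.Completion ⊗[K] A, x ≠ 0 → IsUnit x := by
      rintro j rfl
      exact h
    exact key _ hi
  · rintro ⟨φ, h⟩
    exact isDiv_of (L := p.abv.Completion) φ h

end adiv

/-! ### The abstract form -/

section abstract

variable {G ι : Type} [Group G] {U : ι → Type} [∀ i, Group (U i)] [∀ i, TopologicalSpace (U i)]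
  {P : ∀ i, U i → Prop} {δ : ∀ i, G →* U i}

/-- `IsMP` from a topological group which is isomorphic to the product of the local groups. -/
theorem isMP_of {X : Type} [Group X] [TopologicalSpace X] (val : X →* ∀ i, U i)
    (hval : IsInducing val) (hinj : Function.Injective val)
    (hrange : ∀ x, (∃ y, val y = x) ↔ ∀ i, P i (x i)) (D : G →* X)
    (hD : ∀ g i, val (D g) i = δ i g) (hdense : DenseRange D)
    (hN : ∀ N : Subgroup G, N.index ≠ 0 → ∃ W : Subgroup X, IsOpen (W : Set X) ∧ N = W.comap D ∧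
      (N.Normal → W.Normal)) : IsMP P δ := by
  let r : X →* val.range := val.rangeRestrict
  have hr1 : Function.Injective r := fun x y h => hinj (congrArg Subtype.val h)
  have hr2 : Function.Surjective r := val.rangeRestrict_surjective
  have hr3 : IsInducing r := by
    refine ⟨?_⟩
    rw [hval.eq_induced]
    change _ = TopologicalSpace.induced r (TopologicalSpace.induced Subtype.val _)
    rw [induced_compose]
    rfl
  refine ⟨val.range, r.comp D, ?_, ?_, ?_, ?_⟩
  · intro x
    rw [MonoidHom.mem_range]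
    exact hrange x
  · intro g i
    exact hD g i
  · rw [MonoidHom.coe_comp]
    exact hr2.denseRange.comp hdense hr3.continuous
  · intro N hNi
    obtain ⟨W, hW1, hW2, hW3⟩ := hN N hNi
    refine ⟨W.map r, ?_, ?_, ?_⟩
    · obtain ⟨t, ht, hte⟩ := hr3.isOpen_iff.mp hW1
      have h1 : ((W.map r : Subgroup val.range) : Set val.range) = t := by
        rw [Subgroup.coe_map, ← hte, Set.image_preimage_eq _ hr2]
      rw [h1]
      exact ht
    · rw [← Subgroup.comap_comap, Subgroup.comap_map_eq_self_of_injective hr1]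
      exact hW2
    · intro h
      exact (hW3 h).map r hr2

end abstract

/-! ### The concrete form -/

section concrete

variable {k K A Ω : Type} [Field k] [Field K] [Ring A] [StarRing A] [Algebra k K]
    [Algebra k A] [Algebra K A] [Field Ω] [Algebra K Ω] {n : ℕ}

/-- The places in `A(G)`. -/
abbrev Idx (k K A : Type) [Field k] [Field K] [Ring A] [Algebra k K] [Algebra K A] : Type :=
  {v : AbsoluteValue k ℝ // InA k K A v}

/-- The bijection of the sets of places. -/
def idx (i : Idx k K A) : Adiv k K A :=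
  ⟨toPlace i.1 i.2.place, (isDiv_iff (toPlace i.1 i.2.place)).mp i.2.div⟩

omit [StarRing A] [Algebra k A] in
theorem idx_surjective : Function.Surjective (idx (k := k) (K := K) (A := A)) := by
  intro v
  exact ⟨⟨v.1.abv, isPlace_of v.1, (isDiv_iff v.1).mpr v.2⟩, rfl⟩

/-- The group of units of the algebra at a place, with the module topology. -/
noncomputable instance topL (i : Idx k K A) : TopologicalSpace (i.1.Completion ⊗[k] A)ˣ :=
  @Units.instTopologicalSpaceUnits _ (moduleTopology i.1.Completion (i.1.Completion ⊗[k] A)) _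

/-- The components. -/
def vmap (n : ℕ) : HA A n (Adiv k K A) →* ∀ i : Idx k K A, (i.1.Completion ⊗[k] A)ˣ where
  toFun x i := (Subtype.val (x (idx i)) : (Av k A (idx i).1)ˣ)
  map_one' := rfl
  map_mul' _ _ := rfl

theorem vmap_injective : Function.Injective (vmap (k := k) (K := K) (A := A) n) := by
  intro x y h
  funext v
  obtain ⟨i, rfl⟩ := idx_surjective v
  exact Subtype.ext (congrFun h i)

theorem vmap_inducing : IsInducing (vmap (k := k) (K := K) (A := A) n) := by
  refine ⟨?_⟩
  change (⨅ v : Adiv k K A, TopologicalSpace.induced (fun x : HA A n (Adiv k K A) => x v)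
    (TopologicalSpace.induced Subtype.val _)) = TopologicalSpace.induced _ (⨅ i : Idx k K A,
      TopologicalSpace.induced (fun x : ∀ i : Idx k K A, (i.1.Completion ⊗[k] A)ˣ => x i)
        (topL i))
  rw [induced_iInf, ← idx_surjective.iInf_comp]
  refine iInf_congr fun i => ?_
  refine Eq.trans induced_compose ?_
  refine Eq.trans ?_ induced_compose.symm
  rfl

theorem mem_iff (n : ℕ) (x : ∀ i : Idx k K A, (i.1.Completion ⊗[k] A)ˣ) :
    (∃ y, vmap (k := k) (K := K) (A := A) n y = x) ↔ ∀ i, IsSU n (x i : i.1.Completion ⊗[k] A) := by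
  constructor
  · rintro ⟨y, rfl⟩ i
    obtain ⟨h1, h2⟩ := (y (idx i)).2
    exact ⟨h1, h2⟩
  · intro h
    let e : Adiv k K A → Idx k K A := fun v => ⟨v.1.abv, isPlace_of v.1, (isDiv_iff v.1).mpr v.2⟩
    refine ⟨fun v => ⟨x (e v), (h (e v)).unitary, (h (e v)).nrd⟩, ?_⟩
    rfl

/-- The conclusion in the letters of `H732.FSt` implies the conclusion in the letters of
`SpecA`. -/
theorem mp_of_h732f {f : A →ₐ[K] Matrix (Fin n) (Fin n) Ω}
    (h : ∃ δ : GK f →* HA A n (Adiv k K A), H732F.IsDiagonal δ ∧ DenseRange δ ∧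
      ∀ N : Subgroup (GK f), N.index ≠ 0 → H732F.IsOpenPreimage δ N) : MP k f := by
  obtain ⟨δ, h1, h2, h3⟩ := h
  refine ⟨⟨SUA f, fun g => Iff.rfl, ?_⟩⟩
  exact isMP_of (vmap n) vmap_inducing vmap_injective (mem_iff n) δ
    (fun g i => Units.ext (h1 g (idx i))) h2 h3

/-- A global function field is a global field. -/
theorem isGlobalField_of {k : Type} [Field k] (h : IsGlobalFunctionField k) : IsGlobalField k :=
  Or.inr h

end concrete

end Vale.Agent.P011.H313.U
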