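import Mathlib.Algebra.Central.Defs
import Mathlib.Analysis.AbsoluteValue.Equivalence
import Mathlib.Analysis.Normed.Field.WithAbs
import Mathlib.FieldTheory.RatFunc.Basic
import Mathlib.LinearAlgebra.Matrix.Determinant.Basic
import Mathlib.NumberTheory.NumberField.Basic
import Mathlib.RingTheory.SimpleRing.Basic
import Mathlib.RingTheory.TensorProduct.Maps
import Mathlib.Topology.Algebra.Group.Basic
import Mathlib.Topology.Algebra.Module.ModuleTopology

/-!
The letters of the statement on outer forms of type `A` over global fields: only types and instances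
of the library.
-/

open Module TensorProduct

namespace Vale.Agent.P011.H313.U

/-- A global field: a number field, or a finite extension of the field of rational functions in one
variable over a finite field. -/
def IsGlobalField (k : Type) [Field k] : Prop :=
  NumberField k ∨ ∃ (F : Type) (_ : Field F) (_ : Finite F) (_ : Algebra (RatFunc F) k),
    FiniteDimensional (RatFunc F) k

/-- A nonarchimedean place of `k`: a normalized discrete nonarchimedean absolute value. The finite
set `S` is a system of representatives of the residue field. -/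
structure IsPlace {k : Type} [Field k] (v : AbsoluteValue k ℝ) : Prop where
  nonarch : ∀ x y, v (x + y) ≤ max (v x) (v y)
  normalized : ∃ S : Finset k, (∀ s ∈ S, v s ≤ 1) ∧
    (∀ x, v x ≤ 1 → ∃! s, s ∈ S ∧ v (x - s) < 1) ∧ (∃ x, v x = S.card) ∧
    ∀ x, x ≠ 0 → ∃ m : ℤ, v x = (S.card : ℝ) ^ m

/-- For some embedding of `K` in `L` over `k` the algebra `L ⊗ A` over `L` is a division algebra. -/
structure IsDiv (k K A L : Type) [Field k] [Field K] [Ring A] [Algebra k K] [Algebra K A]
    [CommRing L] [Algebra k L] : Prop where
  div : ∃ (_ : Algebra K L), IsScalarTower k K L ∧ ∀ x : L ⊗[K] A, x ≠ 0 → IsUnit x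

/-- The place `v` belongs to `A(G)`. -/
structure InA (k K A : Type) [Field k] [Field K] [Ring A] [Algebra k K] [Algebra K A]
    (v : AbsoluteValue k ℝ) : Prop where
  place : IsPlace v
  div : IsDiv k K A v.Completion

/-- The element `x` of `L ⊗ A` is unitary, `x σ(x) = 1` for the linear extension `σ` of the
involution of `A`, and has reduced norm one: all homomorphisms over `L` to the `n × n` matrices over
a field map it to a matrix of determinant one, where `n` is the degree of `A`. -/
structure IsSU {k L A : Type} [Field k] [CommRing L] [Algebra k L] [Ring A] [Algebra k A]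
    [StarRing A] (n : ℕ) (x : L ⊗[k] A) : Prop where
  unitary : ∀ σ : L ⊗[k] A →ₗ[L] L ⊗[k] A, (∀ y : A, σ (1 ⊗ₜ y) = 1 ⊗ₜ star y) → x * σ x = 1
  nrd : ∀ (Ω : Type) [Field Ω] [Algebra L Ω] (F : L ⊗[k] A →ₐ[L] Matrix (Fin n) (Fin n) Ω),
    (F x).det = 1

/-- Let `H` be the product of the subgroups of the elements of the topological groups `U i` with the
property `P i`, and `d` the homomorphism from `G` to `H` with the components `δ i`. The image of `d`
is dense, and every subgroup `N` of finite index of `G` is the preimage of an open subgroup `W` of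
`H`, which is normal if `N` is normal. -/
def IsMP {G ι : Type} [Group G] {U : ι → Type} [∀ i, Group (U i)] [∀ i, TopologicalSpace (U i)]
    (P : ∀ i, U i → Prop) (δ : ∀ i, G →* U i) : Prop :=
  ∃ (H : Subgroup (∀ i, U i)) (d : G →* H), (∀ x, x ∈ H ↔ ∀ i, P i (x i)) ∧
    (∀ g i, (d g).1 i = δ i g) ∧ DenseRange d ∧ ∀ N : Subgroup G, N.index ≠ 0 →
      ∃ W : Subgroup H, IsOpen (W : Set H) ∧ N = W.comap d ∧ (N.Normal → W.Normal)

/-- `IsMP` for the group `G(k)` of the elements `g` of `A` with `g g* = 1` of reduced norm one
(computed with the splitting `f` of `A`), its diagonal map, and the product of the groups `G(L i)`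
in the groups of units of the algebras `L i ⊗ A` with the module topology. -/
structure MPFor {k K A Ω ι : Type} [Field k] [Field K] [Ring A] [StarRing A]
    [Algebra k A] [Algebra K A] [Field Ω] [Algebra K Ω] {n : ℕ}
    (f : A →ₐ[K] Matrix (Fin n) (Fin n) Ω) (L : ι → Type) [∀ i, CommRing (L i)]
    [∀ i, Algebra k (L i)] [∀ i, TopologicalSpace (L i)] : Prop where
  out : ∃ G : Subgroup Aˣ, (∀ g, g ∈ G ↔ (g : A) * star (g : A) = 1 ∧ (f (g : A)).det = 1) ∧
    @IsMP G ι _ (fun i => (L i ⊗[k] A)ˣ) _
      (fun i => @Units.instTopologicalSpaceUnits _ (moduleTopology (L i) (L i ⊗[k] A)) _)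
      (fun i x => IsSU n (x : L i ⊗[k] A))
      (fun i => (Units.map
        (Algebra.TensorProduct.includeRight : A →ₐ[k] L i ⊗[k] A).toMonoidHom).comp G.subtype)

/-- The conclusion of the conjecture: `MPFor` for the completions of `k` at the places in `A(G)`. -/
structure MP (k : Type) {K A Ω : Type} [Field k] [Field K] [Ring A] [StarRing A] [Algebra k K]
    [Algebra k A] [Algebra K A] [Field Ω] [Algebra K Ω] {n : ℕ}
    (f : A →ₐ[K] Matrix (Fin n) (Fin n) Ω) : Prop where
  out : MPFor (k := k) f (fun v : {v : AbsoluteValue k ℝ // InA k K A v} => v.1.Completion)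

end Vale.Agent.P011.H313.U
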